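import Vale.Agent.P088.R2.H206.E.PA

/-!
# P088, stage 3, EST': payments where `tinf > 0`: the leaf `z0`
-/

open Set Filter
open scoped ContDiff Topology Matrix

noncomputable section

namespace Vale.Agent.P088.R2.H206.E

open Vale.Agent.P088.LR Vale.Agent.P088.HY
open Vale.Agent.P088.R2.H31.EP
open Vale.Agent.P088.R2.H551.E
open Vale.Agent.P088.R2.H464.Cu (mid dif rq)
open Vale.Agent.P088.R2.H867.EP
open Vale.Agent.P088.R2.H455.E
open Vale.Agent.P088.R2.H871.E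
open Vale.Agent.P088.R2.H404.INF (InfC evInf LvG en2 en2_nonneg)

variable {n : ℕ} {q : Cst} {d : Pk n} {z : VV n}

/-! ## Flat slots -/

theorem sxD (i : Fin n) (f : VV n → ℝ) (z : VV n) : d.sx.D i f z = dx i f z := one_mul _

theorem syD (i : Fin n) (f : VV n → ℝ) (z : VV n) : d.sy.D i f z = dy i f z := one_mul _

theorem sxF (h : d.s₁ z.1 = 1) (f : VV n → ℝ) : d.sx.F f z = ∑ i, dx i f z ^ 2 := by
  have e : d.sx.F f z = ∑ i, ∑ j, d.s₁ z.1 i j * dx i f z * dx j f z := by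
    have e1 : d.sx.F f z = ∑ i, ∑ j, d.s₁ z.1 i j * d.sx.D i f z * d.sx.D j f z := rfl
    rw [e1]
    simp only [sxD]
  rw [e, h]
  refine Finset.sum_congr rfl fun i _ => ?_
  rw [Finset.sum_eq_single i]
  · rw [Matrix.one_apply_eq]; ring
  · intro j _ hj
    rw [Matrix.one_apply_ne (Ne.symm hj)]
    ring
  · simp

theorem syF (h : d.s₂ z.2 = 1) (f : VV n → ℝ) : d.sy.F f z = ∑ i, dy i f z ^ 2 := by
  have e : d.sy.F f z = ∑ i, ∑ j, d.s₂ z.2 i j * dy i f z * dy j f z := by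
    have e1 : d.sy.F f z = ∑ i, ∑ j, d.s₂ z.2 i j * d.sy.D i f z * d.sy.D j f z := rfl
    rw [e1]
    simp only [syD]
  rw [e, h]
  refine Finset.sum_congr rfl fun i _ => ?_
  rw [Finset.sum_eq_single i]
  · rw [Matrix.one_apply_eq]; ring
  · intro j _ hj
    rw [Matrix.one_apply_ne (Ne.symm hj)]
    ring
  · simp

/-- The upper bound of `N g + E (S g + S' 2 v)`. -/
theorem comb_up {g v : V n} {N E S S' Q : ℝ} (hN : 1 ≤ N) (hE : 0 ≤ E) (hS : 0 ≤ S)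
    (hQ : 0 ≤ Q) (hg' : √(HY.sq g) ≤ 101 / 100)
    (hv : √(HY.sq v) ≤ Q) (hs : E * (S + |S'| * (2 * Q)) ≤ 1 / 1000) :
    ∑ i, (N * g i + E * (S * g i + S' * (2 * v i))) ^ 2 ≤ (103 / 100 * N) ^ 2 := by
  have e1 : ∑ i, (N * g i + E * (S * g i + S' * (2 * v i))) ^ 2 =
      HY.sq (N • g + E • (S • g + (S' * 2) • v)) := by
    unfold HY.sq
    refine Finset.sum_congr rfl fun i _ => ?_
    simp only [Pi.add_apply, Pi.smul_apply, smul_eq_mul]
    ring
  have h2 := H475.en_add (N • g) (E • (S • g + (S' * 2) • v))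
  rw [H475.en_smul, H475.en_smul, abs_of_nonneg (zero_le_one.trans hN),
    abs_of_nonneg hE] at h2
  have h3 := H475.en_add (S • g) ((S' * 2) • v)
  rw [H475.en_smul, H475.en_smul, abs_of_nonneg hS, abs_mul, abs_two] at h3
  have h4 : |S'| * 2 * √(HY.sq v) ≤ |S'| * (2 * Q) := by
    have := mul_le_mul_of_nonneg_left hv (mul_nonneg (abs_nonneg S') zero_le_two)
    linarith
  have h5 : S * √(HY.sq g) ≤ S * (101 / 100) := mul_le_mul_of_nonneg_left hg' hS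
  have h6 : E * √(HY.sq (S • g + (S' * 2) • v)) ≤ 1 / 900 := by
    have h7 : √(HY.sq (S • g + (S' * 2) • v)) ≤ 101 / 100 * (S + |S'| * (2 * Q)) := by
      have h8 : 0 ≤ |S'| * (2 * Q) := by positivity
      linarith
    have := mul_le_mul_of_nonneg_left h7 hE
    linarith
  have h9 : N * √(HY.sq g) ≤ N * (101 / 100) := mul_le_mul_of_nonneg_left hg' (by linarith)
  have h10 : √(HY.sq (N • g + E • (S • g + (S' * 2) • v))) ≤ 103 / 100 * N := by linarith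
  rw [e1, ← Real.sq_sqrt (H475.sq0 (N • g + E • (S • g + (S' * 2) • v)))]
  exact pow_le_pow_left₀ (Real.sqrt_nonneg _) h10 2

/-- The weight near a deep point close to the diagonal. -/
theorem W_ev0 (h : PkOk q d) (hu : d.u q =ᶠ[𝓝 z] d.u0) (hf : Fla d z) (hR : 0 < q.R)
    (l1 : d.l z.1 < d.l₀ q + 26 / 10 * q.R) (l2 : d.l z.2 < d.l₀ q + 26 / 10 * q.R)
    (hr : qq z < (q.r₁ * Real.exp (-1)) ^ 2) : d.W q =ᶠ[𝓝 z] d.W0 q := by
  have cl : Continuous d.l := h.l_sm.continuous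
  have c1 : Continuous fun w : VV n => d.l w.1 := cl.comp continuous_fst
  have c2 : Continuous fun w : VV n => d.l w.2 := cl.comp continuous_snd
  have c3 : Continuous (qq : VV n → ℝ) := by
    have e : (qq : VV n → ℝ) = fun z => ∑ j, (z.1 j - z.2 j) ^ 2 := rfl
    rw [e]
    fun_prop
  filter_upwards [hu, hf.q, ev_lt c1 l1, ev_lt c2 l2, ev_lt c3 hr] with w hw hq b1 b2 b3
  have hP1 := h.ret.id w.1 (by linarith)
  have hP2 := h.ret.id w.2 (by linarith)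
  have hΘ1 := h.Θ0 (d.l w.1) (by linarith)
  have hΘ2 := h.Θ0 (d.l w.2) (by linarith)
  have hu' : H31.EP.uu (d.F q) d.l (gi d.s₁) w = d.u0 w := hw
  have hr' : H31.EP.r2 (gi d.s₁) w = qq w := hq
  unfold Pk.W WT WW
  rw [hP1, hP2, hΘ1, hΘ2]
  simp only [Prod.mk.eta]
  rw [hu', hr', st_in' h.ok b3]
  have hX : (d.F q).X (d.u0 w) = 1 := rfl
  have hF : (d.F q).Φ (d.u0 w) = d.Φ (d.u0 w) := rfl
  have hS : (d.F q).S (qq w) = prS q.e₁ (qq w) := rfl
  rw [hX, hF, hS]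
  unfold Pk.W0 Pk.G0
  ring

/-! ## The facts -/

/-- The facts at a point where the leaf `z0` is alive. -/
structure ZF (q : Cst) (d : Pk n) (z : VV n) : Prop where
  dp : d.u0 z < -(3 / 2) * (q.R / q.σ)
  nx : nx q d z = deriv d.Φ (d.u0 z)
  ny : ny q d z = deriv d.Φ (d.u0 z)
  M : q.M₀ ≤ deriv d.Φ (d.u0 z)
  N : d.N q z = deriv d.Φ (d.u0 z)
  E : d.E q z ≤ q.σ / q.R
  K0 : 0 ≤ d.Kf q z
  K : d.Kf q z ≤ q.σ / q.R
  a1 : 4 / 5 * deriv d.Φ (d.u0 z) ^ 2 ≤ d.sx.F (d.W q) z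
  a2 : d.sx.F (d.W q) z ≤ 2 * deriv d.Φ (d.u0 z) ^ 2
  b1 : 4 / 5 * deriv d.Φ (d.u0 z) ^ 2 ≤ d.sy.F (d.W q) z
  b2 : d.sy.F (d.W q) z ≤ 2 * deriv d.Φ (d.u0 z) ^ 2

theorem evExp : EvC fun q => 0 < q.σ → Real.exp (-(q.R / q.σ)) ≤ q.σ / q.R ∧
    q.ph.Cb * Real.exp (-(q.R / q.σ)) ≤ q.σ / q.R := by
  refine EvC.at_R (fun q t => 0 < q.σ → Real.exp (-(t / q.σ)) ≤ q.σ / t ∧
    q.ph.Cb * Real.exp (-(t / q.σ)) ≤ q.σ / t) fun q => ?_
  by_cases h : 0 < q.σ
  · have h1 := Real.tendsto_pow_mul_exp_neg_atTop_nhds_zero 1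
    have h2 : Tendsto (fun t : ℝ => t / q.σ) atTop atTop := tendsto_id.atTop_div_const h
    have h3 := (h1.comp h2).const_mul (|q.ph.Cb| + 1)
    rw [mul_zero] at h3
    filter_upwards [h3.eventually_le_const one_pos, eventually_gt_atTop 0] with t ht h0 _
    simp only [Function.comp_apply, pow_one] at ht
    have e0 := Real.exp_pos (-(t / q.σ))
    have e1 : (|q.ph.Cb| + 1) * Real.exp (-(t / q.σ)) ≤ q.σ / t := by
      rw [le_div_iff₀ h0]
      have e2 : (|q.ph.Cb| + 1) * (t / q.σ * Real.exp (-(t / q.σ))) * q.σ =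
          (|q.ph.Cb| + 1) * Real.exp (-(t / q.σ)) * t := by field_simp
      rw [← e2]
      nlinarith
    have e3 := abs_nonneg q.ph.Cb
    have e4 := le_abs_self q.ph.Cb
    constructor
    · nlinarith
    · nlinarith
  · exact Eventually.of_forall fun _ a => absurd a h

theorem evZF (hn : 1 ≤ n) : EvC fun q => ∀ d : Pk n, PkOk q d → ∀ z : VV n, In3 q d z →
    d.ch q .z0 z ≠ 0 → ZF q d z := by
  have h1 : EvC fun q => 0 < q.c' → 4 * q.c₀ ^ 2 < (q.r₁ * Real.exp (-1)) ^ 2 := by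
    have key := EvC.at_M₀ (fun q t => 0 < q.c' →
      4 * q.c₀ ^ 2 < (q.c' * t / 2 * Real.exp (-1)) ^ 2) fun q => by
        by_cases hc : 0 < q.c'
        · have ht : Tendsto (fun t : ℝ => (q.c' * t / 2 * Real.exp (-1)) ^ 2) atTop atTop := by
            refine (tendsto_pow_atTop (by norm_num)).comp ?_
            exact ((tendsto_id.const_mul_atTop hc).atTop_div_const two_pos).atTop_mul_const
              (Real.exp_pos _)
          filter_upwards [ht.eventually_gt_atTop (4 * q.c₀ ^ 2)] with t ht _ using ht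
        · exact Eventually.of_forall fun _ h => absurd h hc
    exact key
  have h2 : EvC fun q => q.c₀ ≤ 1 := EvC.at_c₀ (fun _ t => t ≤ 1) fun _ => sml_le one_pos
  refine ((((EvC.liv n).and (EvC.fla n hn)).and ((EvC.u_ev n).and (EvC.tub n))).and
    (((EvC.cpOk n).and evExp).and ((h1.and h2).and (EvC.rad.and (evInf.and EvC.pos))))).mono ?_
  rintro q ⟨⟨⟨hlv, hfl⟩, hue, htub⟩, ⟨hcp, hex⟩, ⟨h1, h2⟩, hrad, hI,
    ⟨-, -, -, -, -, hc, -⟩, ⟨-, hσ, hc', -⟩, hM, -⟩ d h z hz hal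
  have hR := hI.R0
  have lv := hlv d h z hz.i .z0 (by unfold Inf; decide) hal
  have hdp : d.u0 z < -(3 / 2) * (q.R / q.σ) := by
    rcases lv.cas with ⟨c, -⟩ | ⟨-, c⟩ | ⟨c, -⟩
    · rcases c with c | c <;> exact absurd c (by decide)
    · exact c
    · rcases c with c | c <;> exact absurd c (by decide)
  have hti := tinf_of (k := .z0) (by unfold Inf; decide) hal
  have nr := lv.nr
  obtain ⟨r1, r2⟩ := rates hI h nr
  have hf := hfl d h z hti (Or.inl hdp)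
  have hu := hue d h z hz.i hz.x hz.y
  have huz : d.u q z = d.u0 z := hu.self_of_nhds
  have hP := hcp d h
  have a1 := (H404.INF.gl_le hI h).1 nr.ok.g1
  have a2 := (H404.INF.gl_le hI h).1 nr.ok.g2
  have hq4 : qq z ≤ 4 * q.c₀ ^ 2 := by
    have h3 := alive_r (fun i => Fl_pair i) hP hal (Or.inl rfl)
    have h4 : (d.cp q).c₀ = q.c₀ := rfl
    rw [h4, hf.q.self_of_nhds] at h3
    exact h3
  have hp1 := Cst.p₁_ge hrad
  have hq8 : qq z ≤ 8 * q.p₁ ^ 2 := by nlinarith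
  have hW := W_ev0 h hu hf hR (by linarith) (by linarith) (lt_of_le_of_lt hq4 (h1 hc'))
  obtain ⟨t1, t2, t3, t4⟩ := htub d h z hdp hti hq8
  have hN : q.M₀ ≤ deriv d.Φ (d.u0 z) := h.N_ge _
  have hN1 : 1 ≤ deriv d.Φ (d.u0 z) := hM.trans hN
  have hq0 := qq_nonneg z
  have hs0 := PkOk.prS_nonneg (q := q) hrad hq0
  have hG0 : 0 ≤ d.G0 q z := mul_nonneg (Real.exp_pos _).le hs0
  have hNG : deriv d.Φ (d.u0 z) ≤ d.NG q z := by
    unfold Pk.NG; linarith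
  have hS : Differentiable ℝ (prS q.e₁) := hrad.pp.contDiff_Ph.differentiable (by simp)
  have hΦ : Differentiable ℝ d.Φ := h.Φs.differentiable (by simp)
  have hl : Differentiable ℝ d.l := h.l_sm.differentiable (by simp)
  have sq_up : ∀ {v : V n}, ∑ i, v i ^ 2 ≤ (101 / 100) ^ 2 → √(HY.sq v) ≤ 101 / 100 :=
    fun hv => Real.sqrt_le_iff.2 ⟨by norm_num, hv⟩
  have up1 : ∑ i, dx i (d.W0 q) z ^ 2 ≤ (103 / 100 * deriv d.Φ (d.u0 z)) ^ 2 := by
    have c := comb_up (g := fun i => pd i d.l z.1) (v := z.1 - z.2) hN1 (Real.exp_pos _).le hs0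
      (by linarith) (sq_up nr.g1') t4 t3
    refine le_trans (le_of_eq (Finset.sum_congr rfl fun i _ => ?_)) c
    rw [dx_W0 hΦ hS hl]
    simp only [Pi.sub_apply]
  have t4' : √(HY.sq (z.2 - z.1)) ≤ 3 * q.p₁ := by
    rw [H404.INF.sq_swap]; exact t4
  have up2 : ∑ i, dy i (d.W0 q) z ^ 2 ≤ (103 / 100 * deriv d.Φ (d.u0 z)) ^ 2 := by
    have c := comb_up (g := fun i => pd i d.l z.2) (v := z.2 - z.1) hN1 (Real.exp_pos _).le hs0
      (by linarith) (sq_up nr.g2') t4' t3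
    refine le_trans (le_of_eq (Finset.sum_congr rfl fun i _ => ?_)) c
    rw [dy_W0 hΦ hS hl]
    simp only [Pi.sub_apply]
  have eX : d.sx.F (d.W q) z = ∑ i, dx i (d.W0 q) z ^ 2 := by
    rw [sxF hf.x.self_of_nhds.1]
    refine Finset.sum_congr rfl fun i _ => ?_
    unfold dx
    rw [hW.fderiv_eq]
  have eY : d.sy.F (d.W q) z = ∑ i, dy i (d.W0 q) z ^ 2 := by
    rw [syF hf.y.self_of_nhds.2]
    refine Finset.sum_congr rfl fun i _ => ?_
    unfold dy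
    rw [hW.fderiv_eq]
  have hlow : 4 / 5 * deriv d.Φ (d.u0 z) ^ 2 ≤ (9 / 10 * d.NG q z) ^ 2 := by
    have : (9 / 10 * deriv d.Φ (d.u0 z)) ^ 2 ≤ (9 / 10 * d.NG q z) ^ 2 :=
      pow_le_pow_left₀ (by linarith) (by linarith) 2
    nlinarith
  have hexp : Real.exp (d.u0 z) ≤ Real.exp (-(q.R / q.σ)) := by
    refine Real.exp_le_exp.2 ?_
    have : 0 < q.R / q.σ := by positivity
    linarith
  obtain ⟨x1, x2⟩ := hex hσ
  have hl0 := (lvG_of h hI.R1 hI.C1 hσ hI.σ1 hI.η1).l0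
  have huth : d.u0 z ≤ d.uth q / 2 := by
    have e : d.uth q = 2 * d.l₀ q + 22 / 10 * q.R := rfl
    have : 0 < q.R / q.σ := by positivity
    rw [e]
    linarith
  have hKe : d.Kf q z = deriv (deriv d.Φ₁) (d.u0 z) := by
    unfold Pk.Kf
    rw [huz, h.top.e2 _ huth]
  have hCb : 0 ≤ q.ph.Cb := by
    have k := h.ph.isΦ.k2 0
    have k0 := h.ph.isΦ.k0 0
    rw [Real.exp_zero, mul_one] at k
    linarith
  have hup : (103 / 100 * deriv d.Φ (d.u0 z)) ^ 2 ≤ 2 * deriv d.Φ (d.u0 z) ^ 2 := by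
    have e : (103 / 100 * deriv d.Φ (d.u0 z)) ^ 2 = 10609 / 10000 * deriv d.Φ (d.u0 z) ^ 2 := by
      ring
    rw [e]
    linarith [sq_nonneg (deriv d.Φ (d.u0 z))]
  refine ⟨hdp, r1, r2, hN, ?_, ?_, ?_, ?_, ?_, ?_, ?_, ?_⟩
  · unfold Pk.N; rw [huz]
  · unfold Pk.E; rw [huz]; exact hexp.trans x1
  · rw [hKe]; exact (h.ph.isΦ.k0 _).le
  · rw [hKe]
    exact (h.ph.isΦ.k2 _).trans ((mul_le_mul_of_nonneg_left hexp hCb).trans x2)
  · rw [eX]; exact hlow.trans t1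
  · rw [eX]; exact up1.trans hup
  · rw [eY]; exact hlow.trans t2
  · rw [eY]; exact up2.trans hup

/-! ## The payer -/

/-- **The leaf `z0` pays.** -/
theorem pb0 (hn : 1 ≤ n) {L : Lc n} (hL : L.Ok) : PbI L .z0 := by
  refine ⟨fun q => L.c0 q * L.cs q / 4, ⟨fun q => ?_, fun q => ?_⟩, ?_⟩
  · simp only [hL.c0.2 q, hL.cs.2 q]
  · have h1 := hL.c0.1 q
    have h2 := (hL.cs.1 q).1
    positivity
  have h1 : EvC fun q => 0 < q.σ → q.σ / q.R ≤ 1 := by
    refine EvC.at_R (fun q t => 0 < q.σ → q.σ / t ≤ 1) fun q => ?_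
    by_cases hr : 0 < q.σ
    · filter_upwards [eventually_ge_atTop q.σ] with t ht _
      have : 0 < t := hr.trans_le ht
      rw [div_le_one this]
      exact ht
    · exact Eventually.of_forall fun _ h => absurd h hr
  refine ((evZF hn).and (h1.and EvC.pos)).mono ?_
  rintro q ⟨hA, h1, -, ⟨-, hσ, -⟩, hM, -, -, -, -, hR⟩ d h z hz hal
  have A := hA d h z hz hal
  have hR0 : 0 < q.R := by linarith
  have hN : 1 ≤ deriv d.Φ (d.u0 z) := hM.trans A.M
  have hs : 0 ≤ q.σ / q.R := by positivity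
  have hs1 := h1 hσ
  have hc := hL.c0.1 q
  have hcs := (hL.cs.1 q).1
  have hE : 0 ≤ d.E q z := (Real.exp_pos _).le
  have hsg : sg L q = L.cs q * (q.σ / q.R) := rfl
  rw [A.nx, A.ny]
  have z1 : L.c0 q * L.cs q / 4 * (q.σ / q.R * deriv d.Φ (d.u0 z)) ≤
      L.c0 q * (d.E q z + sg L q * d.N q z) := by
    rw [A.N, hsg]
    have e : L.c0 q * (d.E q z + L.cs q * (q.σ / q.R) * deriv d.Φ (d.u0 z)) =
        L.c0 q * d.E q z + L.c0 q * L.cs q * (q.σ / q.R * deriv d.Φ (d.u0 z)) := by ring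
    rw [e]
    have : 0 ≤ L.c0 q * L.cs q * (q.σ / q.R * deriv d.Φ (d.u0 z)) := by positivity
    have : 0 ≤ L.c0 q * d.E q z := by positivity
    linarith
  have w1 : ∀ {F : ℝ}, F ≤ 2 * deriv d.Φ (d.u0 z) ^ 2 →
      L.c0 q * L.cs q / 4 * (q.σ / q.R * (deriv d.Φ (d.u0 z) * F +
        q.σ / q.R * deriv d.Φ (d.u0 z) ^ 2)) ≤
      L.c0 q * ((d.E q z + sg L q * d.N q z) * d.N q z ^ 2) := by
    intro F hF
    rw [A.N, hsg]
    set N := deriv d.Φ (d.u0 z) with hNd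
    set s := q.σ / q.R with hsd
    have a1 : N * F + s * N ^ 2 ≤ 3 * (N * N ^ 2) := by
      have b1 : N * F ≤ N * (2 * N ^ 2) := mul_le_mul_of_nonneg_left hF (by linarith)
      have b2 : s * N ^ 2 ≤ 1 * N ^ 2 := mul_le_mul_of_nonneg_right hs1 (sq_nonneg _)
      have b3 : 1 * N ^ 2 ≤ N * N ^ 2 := mul_le_mul_of_nonneg_right hN (sq_nonneg _)
      linarith
    have a2 : s * (N * F + s * N ^ 2) ≤ s * (3 * (N * N ^ 2)) := mul_le_mul_of_nonneg_left a1 hs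
    have a3 : L.c0 q * L.cs q / 4 * (s * (N * F + s * N ^ 2)) ≤
        L.c0 q * L.cs q / 4 * (s * (3 * (N * N ^ 2))) :=
      mul_le_mul_of_nonneg_left a2 (by positivity)
    have e : L.c0 q * ((d.E q z + L.cs q * s * N) * N ^ 2) =
        L.c0 q * (d.E q z * N ^ 2) + L.c0 q * L.cs q * (s * (N * N ^ 2)) := by ring
    rw [e]
    have : 0 ≤ L.c0 q * (d.E q z * N ^ 2) := by positivity
    have h0N : 0 ≤ N := by linarith
    have : 0 ≤ L.c0 q * L.cs q * (s * (N * N ^ 2)) := by positivity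
    linarith
  exact ⟨hc.le, z1, z1, by show 0 ≤ L.c0 q * d.E q z; positivity, w1 A.a2, w1 A.b2,
    le_rfl, le_rfl⟩

/-! ## The cost -/

/-- The scalar inequalities for the cost of `z0`. -/
theorem sc_0 {η Z Z' x K s N F ε C : ℝ} (hη : 0 < η) (hZ : 0 ≤ Z) (hZ'0 : 0 ≤ Z')
    (hZ' : Z' ≤ 2 * Z) (hC : 0 ≤ C)
    (hx0 : 0 ≤ x) (hx : x ≤ 2 * (s * N)) (hK : K ≤ s * N) (hs : 0 ≤ s) (hN : 0 ≤ N)
    (h1 : η * (20 * (C * Z)) ≤ ε) (h2 : 15 * (C * Z) ≤ ε * η * N ^ 2)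
    (h3 : η * (20 * (C * Z)) ≤ ε) (hF : 4 / 5 * N ^ 2 ≤ F) :
    C * (η * (x / (1 + x) * Z')) ≤ ε * (s * N) ∧
      C * ((1 / η * (K + x) + η * N ^ 2 * (x / (1 + x))) * Z') ≤
        ε * (s * (N * F + s * N ^ 2)) := by
  have hsN : 0 ≤ s * N := mul_nonneg hs hN
  have hCZ : 0 ≤ C * Z := mul_nonneg hC hZ
  have hε : 0 ≤ ε := le_trans (by positivity) h1
  have hxx : x / (1 + x) ≤ 2 * (s * N) := (div_le_self hx0 (by linarith)).trans hx
  have hxx0 : 0 ≤ x / (1 + x) := by positivity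
  constructor
  · have a1 : x / (1 + x) * Z' ≤ 2 * (s * N) * (2 * Z) :=
      mul_le_mul hxx hZ' hZ'0 (by positivity)
    have a2 := mul_le_mul_of_nonneg_left a1 hη.le
    have a3 := mul_le_mul_of_nonneg_left a2 hC
    have a4 := mul_le_mul_of_nonneg_right h1 hsN
    have e : C * (η * (2 * (s * N) * (2 * Z))) = 4 / 20 * (η * (20 * (C * Z)) * (s * N)) := by ring
    have : 0 ≤ ε * (s * N) := by positivity
    linarith
  · have b1 : 1 / η * (K + x) ≤ 1 / η * (3 * (s * N)) :=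
      mul_le_mul_of_nonneg_left (by linarith) (by positivity)
    have b2 : η * N ^ 2 * (x / (1 + x)) ≤ η * N ^ 2 * (2 * (s * N)) :=
      mul_le_mul_of_nonneg_left hxx (by positivity)
    have b3 : (1 / η * (K + x) + η * N ^ 2 * (x / (1 + x))) * Z' ≤
        (1 / η * (3 * (s * N)) + η * N ^ 2 * (2 * (s * N))) * (2 * Z) :=
      mul_le_mul (add_le_add b1 b2) hZ' hZ'0 (by positivity)
    have b4 := mul_le_mul_of_nonneg_left b3 hC
    have e1 : C * ((1 / η * (3 * (s * N)) + η * N ^ 2 * (2 * (s * N))) * (2 * Z)) =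
        2 / 5 * (15 * (C * Z) * (s * N / η)) + 1 / 5 * (η * (20 * (C * Z)) * (s * N * N ^ 2)) := by
      field_simp
      ring
    have b5 := mul_le_mul_of_nonneg_right h2 (by positivity : 0 ≤ s * N / η)
    have e2 : ε * η * N ^ 2 * (s * N / η) = ε * (s * N * N ^ 2) := by field_simp
    have b6 := mul_le_mul_of_nonneg_right h3 (by positivity : 0 ≤ s * N * N ^ 2)
    have b7 : ε * (s * N * N ^ 2) ≤ 5 / 4 * (ε * (s * (N * F))) := by
      have := mul_le_mul_of_nonneg_left hF (by positivity : 0 ≤ ε * (s * N))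
      nlinarith
    have b8 : 0 ≤ ε * (s * (s * N ^ 2)) := by positivity
    have e3 : ε * (s * (N * F + s * N ^ 2)) = ε * (s * (N * F)) + ε * (s * (s * N ^ 2)) := by ring
    rw [e3]
    have b9 : 0 ≤ ε * (s * N * N ^ 2) := by positivity
    linarith

/-- **The cost of the leaf `z0` is small.** -/
theorem cb0 (hn : 1 ≤ n) {L : Lc n} (hL : L.Ok) : CbI L .z0 := by
  intro ε hε
  refine ⟨fun q => ε q / (20 * (L.C0 q * Zd n q) + 1), ⟨fun q => ?_, fun q => ?_⟩,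
    fun e he hle => ?_⟩
  · have h1 := hε.1 q
    have h2 : Zd n q.b_c' = Zd n q := rfl
    simp only [h1, h2, hL.C0.2 q]
  · have h1 := hε.2 q
    have h2 := Zd_nn n q
    have h3 := hL.C0.1 q
    show 0 < ε q / (20 * (L.C0 q * Zd n q) + 1)
    positivity
  have nbε : ∀ q : Cst, ε q.b_M₀ = ε q := fun q => by
    rw [← hε.1 q.b_M₀, ← hε.1 q]; rfl
  have nbe : ∀ q : Cst, e q.b_M₀ = e q := fun q => by
    rw [← he.1 q.b_M₀, ← he.1 q]; rfl
  have nbC : ∀ q : Cst, L.C0 q.b_M₀ = L.C0 q := fun q => by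
    rw [← hL.C0.2 q.b_M₀, ← hL.C0.2 q]; rfl
  have h1 : EvC fun q => 15 * (L.C0 q * Zd n q) ≤ ε q * e q * q.M₀ ^ 2 := by
    have key := EvC.at_M₀ (fun q t => 15 * (L.C0 q * Zd n q) ≤ ε q * e q * t ^ 2)
      fun q => by
        have h1 := hε.2 q
        have h2 := he.2 q
        have ht : Tendsto (fun t : ℝ => ε q * e q * t ^ 2) atTop atTop :=
          (tendsto_pow_atTop (by norm_num)).const_mul_atTop (by positivity)
        exact ht.eventually_ge_atTop (15 * (L.C0 q * Zd n q))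
    refine key.mono fun q hq => ?_
    rw [nbε, nbe, nbC] at hq
    exact hq
  refine ((((evZF hn).and (EvC.litSm n)).and (EvC.deep_b n hn)).and (h1.and EvC.pos)).mono ?_
  rintro q ⟨⟨⟨hA, hsm⟩, hdb⟩, h1, -, ⟨-, hσ, -⟩, hM, -, -, -, -, hR⟩ d h z hz hal
  have A := hA d h z hz hal
  have hR0 : 0 < q.R := by linarith
  have hN : 1 ≤ deriv d.Φ (d.u0 z) := hM.trans A.M
  have hN0 : 0 ≤ deriv d.Φ (d.u0 z) := by linarith
  have hs : 0 ≤ q.σ / q.R := by positivity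
  have hC := hL.C0.1 q
  have hcs := hL.cs.1 q
  have hE : 0 ≤ d.E q z := (Real.exp_pos _).le
  have he0 := he.2 q
  have hε0 := hε.2 q
  have hZ := Zd_nn n q
  obtain ⟨Z1, Z2⟩ := Z_le (hsm d h) (hdb d h z A.dp .z0 (Or.inl rfl) hal)
  have hZ' : H867.Z.sq1 (d.ch q .z0) z ≤ 2 * Zd n q := by
    have e : H867.Z.sq1 (d.ch q .z0) z =
        ∑ i, d.sx.D i (d.ch q .z0) z ^ 2 + ∑ i, d.sy.D i (d.ch q .z0) z ^ 2 := by
      unfold H867.Z.sq1
      rw [Finset.sum_add_distrib]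
      simp only [sxD, syD]
    rw [e]
    unfold Zd
    linarith
  have hZ'0 := H867.Z.sq1_nn (d.ch q .z0) z
  have hsN : q.σ / q.R ≤ q.σ / q.R * deriv d.Φ (d.u0 z) := le_mul_of_one_le_right hs hN
  have hx : d.E q z + sg L q * d.N q z ≤ 2 * (q.σ / q.R * deriv d.Φ (d.u0 z)) := by
    have e : sg L q = L.cs q * (q.σ / q.R) := rfl
    rw [e, A.N]
    have b1 : L.cs q * (q.σ / q.R) ≤ 1 * (q.σ / q.R) := mul_le_mul_of_nonneg_right hcs.2 hs
    have b2 := mul_le_mul_of_nonneg_right b1 hN0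
    have b3 := A.E
    linarith
  have hx0 : 0 ≤ d.E q z + sg L q * d.N q z := by
    have e : sg L q = L.cs q * (q.σ / q.R) := rfl
    rw [e, A.N]
    have := hcs.1
    positivity
  have ht : e q * (20 * (L.C0 q * Zd n q)) ≤ ε q := by
    have := hle q
    rw [le_div_iff₀ (by positivity)] at this
    linarith
  have hM2 : 15 * (L.C0 q * Zd n q) ≤ ε q * e q * deriv d.Φ (d.u0 z) ^ 2 := by
    refine h1.trans (mul_le_mul_of_nonneg_left ?_ (by positivity))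
    exact pow_le_pow_left₀ (by linarith) A.M 2
  rw [A.nx, A.ny]
  obtain ⟨x1, x2⟩ := sc_0 he0 hZ hZ'0 hZ' hC.le hx0 hx (A.K.trans hsN) hs hN0 ht hM2 ht A.a1
  obtain ⟨-, y2⟩ := sc_0 he0 hZ hZ'0 hZ' hC.le hx0 hx (A.K.trans hsN) hs hN0 ht hM2 ht A.b1
  have eN : d.N q z ^ 2 = deriv d.Φ (d.u0 z) ^ 2 := by rw [A.N]
  refine ⟨le_rfl, x1, x1, le_rfl, ?_, ?_, le_rfl, le_rfl⟩
  · show L.C0 q * ((1 / e q * (d.Kf q z + (d.E q z + sg L q * d.N q z)) +
      e q * d.N q z ^ 2 * ((d.E q z + sg L q * d.N q z) /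
        (1 + (d.E q z + sg L q * d.N q z)))) * H867.Z.sq1 (d.ch q .z0) z) ≤ _
    rw [eN]
    exact x2
  · show L.C0 q * ((1 / e q * (d.Kf q z + (d.E q z + sg L q * d.N q z)) +
      e q * d.N q z ^ 2 * ((d.E q z + sg L q * d.N q z) /
        (1 + (d.E q z + sg L q * d.N q z)))) * H867.Z.sq1 (d.ch q .z0) z) ≤ _
    rw [eN]
    exact y2

end Vale.Agent.P088.R2.H206.E
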