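import Vale.Agent.P088.R2.H871.E.Ze
import Vale.Agent.P088.R2.H912.A.Sup
import Vale.Agent.P088.R2.H475.A.Deep

/-!
# P088, stage 3, EST': payments where `tinf > 0`: the leaves `A1`, `A2`, `Af`
-/

open Set Filter
open scoped ContDiff Topology Matrix

noncomputable section

namespace Vale.Agent.P088.R2.H206.E

open Vale.Agent.P088.LR Vale.Agent.P088.HY
open Vale.Agent.P088.R2.H31.EP
open Vale.Agent.P088.R2.H551.E
open Vale.Agent.P088.R2.H867.EP
open Vale.Agent.P088.R2.H455.E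
open Vale.Agent.P088.R2.H871.E
open Vale.Agent.P088.R2.H404.INF (InfC evInf LvG en2 en2_nonneg)

variable {n : ℕ} {q : Cst} {d : Pk n} {z : VV n}

/-! ## The rates -/

theorem Θd_zero (h : PkOk q d) {t : ℝ} (ht : t < d.l₀ q + 26 / 10 * q.R) : deriv d.Θ t = 0 := by
  have : d.Θ =ᶠ[𝓝 t] fun _ => (0 : ℝ) := by
    filter_upwards [Iio_mem_nhds ht] with s hs
    exact h.Θ0 s (le_of_lt hs)
  rw [this.deriv_eq, deriv_const]

/-- The rates at a point where a near leaf is alive. -/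
theorem rates (hI : InfC q) (h : PkOk q d) (nr : Nr q d z) :
    nx q d z = deriv d.Φ (d.u0 z) ∧ ny q d z = deriv d.Φ (d.u0 z) := by
  have hR := hI.R0
  have a1 := (H404.INF.gl_le hI h).1 nr.ok.g1
  have a2 := (H404.INF.gl_le hI h).1 nr.ok.g2
  unfold nx ny
  rw [Θd_zero h (by linarith), Θd_zero h (by linarith)]
  simp

/-- The facts at a point where a leaf of zone A is alive. -/
structure AF (q : Cst) (d : Pk n) (z : VV n) : Prop where
  nx : nx q d z = deriv d.Φ (d.u0 z)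
  ny : ny q d z = deriv d.Φ (d.u0 z)
  M : q.M₀ ≤ deriv d.Φ (d.u0 z)
  NG : H747.A.NG q d z = deriv d.Φ (d.u0 z) + H747.A.GG q d z
  G : 0 ≤ H747.A.GG q d z
  r : q.c₀ / 2 < H747.A.rr d z
  F1 : (q.rT / 8) ^ 2 / 2 * H747.A.NG q d z ^ 2 ≤ d.sx.F (d.W q) z
  F2 : (q.rT / 8) ^ 2 / 2 * H747.A.NG q d z ^ 2 ≤ d.sy.F (d.W q) z
  B : z ∈ H747.A.OmB q d

theorem evAF (n : ℕ) (hF : RowFn n) {k : Zo} (hk : k = .A1 ∨ k = .A2 ∨ k = .Af) :
    EvC fun q => ∀ d : Pk n, PkOk q d → ∀ z : VV n, In3 q d z → d.ch q k z ≠ 0 → AF q d z := by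
  have hs := H912.A.rowSup n k (by rcases hk with rfl | rfl | rfl <;> simp)
  refine (((EvC.u_eq n).and hs).and ((EvC.nr n).and (hF.and (evInf.and EvC.pos)))).mono ?_
  rintro q ⟨⟨hu, hs⟩, hnr, hF, hI, ⟨-, -, -, -, -, hc, -⟩, -, hM, -⟩ d h z hz hal
  have hkI : ¬Inf k := by
    rcases hk with rfl | rfl | rfl <;> (unfold Inf; decide)
  have nr := hnr d h z (tinf_of hkI hal)
  obtain ⟨r1, r2⟩ := rates hI h nr
  obtain ⟨hB, w1, w2⟩ := (hs d h).2 (subset_tsupport _ hal)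
  have hr : q.c₀ / 2 < H747.A.rr d z := (Real.lt_sqrt (by linarith)).2 hB.1
  have hr0 : 0 < H747.A.rr d z := by linarith
  have hG : 0 < H747.A.GG q d z := h.sl.G_pos (H747.A.ff q d z, H747.A.rr d z) hr0
  obtain ⟨e1, e2⟩ := hF d h z
  have f1 : H747.A.Wx2 q d z ≤ 2 * d.sx.F (d.W q) z := e1.DW (d.W q)
  have f2 : H747.A.Wy2 q d z ≤ 2 * d.sy.F (d.W q) z := e2.DW (d.W q)
  have hN : H747.A.NG q d z = deriv d.Φ (d.u0 z) + H747.A.GG q d z := by
    show deriv d.Φ (d.u q z) + _ = _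
    rw [hu d h z hz.i hz.x hz.y]
  refine ⟨r1, r2, h.N_ge _, hN, hG.le, hr, ?_, ?_, hB⟩
  · nlinarith
  · nlinarith

/-! ## Numbers -/

theorem mA_ge {L : Lc n} (hL : L.Ok) (A : AF q d z) (hc : 0 < q.c₀) (hs : 0 < q.σ) (hR : 0 < q.R) :
    q.σ / q.R * deriv d.Φ (d.u0 z) / 400 ≤ H747.A.mA L.μA q d z := by
  have h1 : 0 < H747.A.rr d z := by linarith [A.r]
  have h2 := A.G
  have h3 := (hL.μA.1 q).le
  have h4 : 0 ≤ L.μA q * (H747.A.GG q d z / H747.A.rr d z) := by positivity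
  unfold H747.A.mA
  rw [A.NG]
  have h5 : 0 ≤ q.σ / (400 * q.R) * H747.A.GG q d z := by positivity
  have e : q.σ / (400 * q.R) * (deriv d.Φ (d.u0 z) + H747.A.GG q d z) =
      q.σ / q.R * deriv d.Φ (d.u0 z) / 400 + q.σ / (400 * q.R) * H747.A.GG q d z := by
    ring
  rw [e]
  linarith

/-- The scalar inequalities at deep points. -/
theorem sc_deep {η Z m s N F ε : ℝ} (hη : 0 < η) (hZ : 0 ≤ Z) (hm0 : 0 ≤ m) (hm : m ≤ s * N / 200)
    (hs : 0 ≤ s) (hN : 0 ≤ N) (hε : 0 ≤ ε) (h1 : η * (2 * Z) ≤ ε) (hF : Z ≤ ε * η * F) :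
    32 * η * (m / (2 + m) * Z) ≤ ε / 18 * (s * N) ∧
      6 / η * (m * Z) ≤ ε / 2 * (s * (N * F + s * N ^ 2)) := by
  have hsN : 0 ≤ s * N := mul_nonneg hs hN
  constructor
  · have h2 : m / (2 + m) ≤ m / 2 := div_le_div_of_nonneg_left hm0 (by norm_num) (by linarith)
    have h3 : m / (2 + m) * Z ≤ s * N / 400 * Z := mul_le_mul_of_nonneg_right (by linarith) hZ
    have h4 := mul_le_mul_of_nonneg_left h3 (by positivity : 0 ≤ 32 * η)
    have h5 := mul_le_mul_of_nonneg_right h1 hsN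
    have e1 : 32 * η * (s * N / 400 * Z) = 16 / 400 * (η * (2 * Z) * (s * N)) := by ring
    have h6 : 0 ≤ ε * (s * N) := mul_nonneg hε hsN
    linarith
  · have h2 : m * Z ≤ s * N / 200 * Z := mul_le_mul_of_nonneg_right hm hZ
    have h3 := mul_le_mul_of_nonneg_left h2 (by positivity : 0 ≤ 6 / η)
    have h4 := mul_le_mul_of_nonneg_left hF (by positivity : 0 ≤ 6 / η * (s * N / 200))
    have e1 : 6 / η * (s * N / 200) * (ε * η * F) = 6 / 200 * (ε * (s * N * F)) := by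
      field_simp
    have h7 : 0 ≤ ε * (s * N * F) := by
      have h8 : 0 ≤ ε * η * F := hZ.trans hF
      have h9 : 0 ≤ ε * F := by
        have : ε * η * F = η * (ε * F) := by ring
        rw [this] at h8
        exact nonneg_of_mul_nonneg_right h8 hη
      have e2 : ε * (s * N * F) = s * N * (ε * F) := by ring
      rw [e2]
      positivity
    have h8 : 0 ≤ ε * (s * (s * N ^ 2)) := by positivity
    have e3 : 6 / η * (s * N / 200 * Z) = 6 / η * (s * N / 200) * Z := by ring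
    have e4 : ε / 2 * (s * (N * F + s * N ^ 2)) =
        1 / 2 * (ε * (s * N * F)) + 1 / 2 * (ε * (s * (s * N ^ 2))) := by ring
    rw [e4]
    linarith

/-- The scalar inequalities at points which are not deep. -/
theorem sc_far {η δ m s N G F ε C c₂ : ℝ} (hη : 0 < η) (hη1 : η ≤ 1) (hδ : 0 ≤ δ) (hm0 : 0 ≤ m)
    (hm : m ≤ C * G) (hs : 0 ≤ s) (hN : 0 ≤ N) (hG : 1 ≤ G) (hε : 0 ≤ ε) (hc₂ : 0 ≤ c₂)
    (h1 : 576 * δ ≤ ε) (h2 : 12 * (C * δ) ≤ ε * η * c₂) (hF : c₂ * G ^ 2 ≤ F) :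
    32 * η * (m / (2 + m) * (δ * (s * N))) ≤ ε / 18 * (s * N) ∧
      6 / η * (m * (δ * (s * N))) ≤ ε / 2 * (s * (N * F + s * N ^ 2)) := by
  have hsN : 0 ≤ s * N := mul_nonneg hs hN
  constructor
  · have h3 : m / (2 + m) ≤ 1 := (div_le_one (by linarith)).2 (by linarith)
    have h4 : 0 ≤ δ * (s * N) := mul_nonneg hδ hsN
    have h5 : m / (2 + m) * (δ * (s * N)) ≤ 1 * (δ * (s * N)) := mul_le_mul_of_nonneg_right h3 h4
    have h6 : 32 * η * (m / (2 + m) * (δ * (s * N))) ≤ 32 * (δ * (s * N)) := by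
      calc _ ≤ 32 * η * (1 * (δ * (s * N))) := mul_le_mul_of_nonneg_left h5 (by positivity)
        _ = η * (32 * (δ * (s * N))) := by ring
        _ ≤ 1 * (32 * (δ * (s * N))) := mul_le_mul_of_nonneg_right hη1 (by positivity)
        _ = _ := by ring
    have h7 := mul_le_mul_of_nonneg_right h1 hsN
    linarith
  · have h3 : m * (δ * (s * N)) ≤ C * G * (δ * (s * N)) :=
      mul_le_mul_of_nonneg_right hm (mul_nonneg hδ hsN)
    have h4 := mul_le_mul_of_nonneg_left h3 (by positivity : 0 ≤ 6 / η)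
    have h5 := mul_le_mul_of_nonneg_right h2 (by positivity : 0 ≤ G * (s * N) / (2 * η))
    have e1 : 12 * (C * δ) * (G * (s * N) / (2 * η)) = 6 / η * (C * G * (δ * (s * N))) := by
      field_simp
      ring
    have e2 : ε * η * c₂ * (G * (s * N) / (2 * η)) = ε / 2 * (s * N * (c₂ * G)) := by
      field_simp
    have h6 : c₂ * G ≤ F := by
      refine le_trans ?_ hF
      have : G ≤ G ^ 2 := by nlinarith
      exact mul_le_mul_of_nonneg_left this hc₂
    have h7 : ε / 2 * (s * N * (c₂ * G)) ≤ ε / 2 * (s * N * F) :=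
      mul_le_mul_of_nonneg_left (mul_le_mul_of_nonneg_left h6 hsN) (by linarith)
    have h8 : 0 ≤ ε / 2 * (s * (s * N ^ 2)) := by positivity
    have e3 : ε / 2 * (s * (N * F + s * N ^ 2)) =
        ε / 2 * (s * N * F) + ε / 2 * (s * (s * N ^ 2)) := by ring
    rw [e3]
    linarith

/-! ## The payer -/

/-- **The leaves of zone A pay.** -/
theorem pbA (hF : RowFn n) {L : Lc n} (hL : L.Ok) {k : Zo}
    (hk : k = .A1 ∨ k = .A2 ∨ k = .Af) : PbI L k := by
  refine ⟨fun _ => 1 / 2400, ⟨fun _ => rfl, fun _ => by norm_num⟩, ?_⟩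
  have h1 : EvC fun q => 0 < q.rT → q.σ / q.R ≤ (q.rT / 8) ^ 2 / 2 := by
    refine EvC.at_R (fun q t => 0 < q.rT → q.σ / t ≤ (q.rT / 8) ^ 2 / 2) fun q => ?_
    by_cases hr : 0 < q.rT
    · have : Tendsto (fun t : ℝ => q.σ / t) atTop (𝓝 0) := tendsto_const_nhds.div_atTop tendsto_id
      filter_upwards [this.eventually_le_const (by positivity : (0 : ℝ) < (q.rT / 8) ^ 2 / 2)]
        with t ht _ using ht
    · exact Eventually.of_forall fun _ h => absurd h hr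
  refine ((evAF n hF hk).and (h1.and EvC.pos)).mono ?_
  rintro q ⟨hA, h1, ⟨-, -, -, -, -, hc, -, hT, -⟩, ⟨-, hσ, -⟩, hM, -, -, -, -, hR⟩ d h z hz hal
  have A := hA d h z hz hal
  have h2 := h1 hT
  have hR0 : 0 < q.R := by linarith
  have hM' : Mz L q d k = H747.SW.MA d.sx d.sy (d.W q) (H747.A.mA L.μA q d) (L.kA q) := by
    rcases hk with rfl | rfl | rfl <;> rfl
  have hm := mA_ge hL A hc hσ hR0
  have hN : 1 ≤ deriv d.Φ (d.u0 z) := hM.trans A.M
  have hs : 0 ≤ q.σ / q.R := by positivity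
  have hNG : deriv d.Φ (d.u0 z) ≤ H747.A.NG q d z := by rw [A.NG]; linarith [A.G]
  have hsq : deriv d.Φ (d.u0 z) ^ 2 ≤ H747.A.NG q d z ^ 2 :=
    pow_le_pow_left₀ (by linarith) hNG 2
  have hc2 : 0 ≤ (q.rT / 8) ^ 2 / 2 := by positivity
  have hF1 := (mul_le_mul_of_nonneg_left hsq hc2).trans A.F1
  have hF2 := (mul_le_mul_of_nonneg_left hsq hc2).trans A.F2
  have hs2 : q.σ / q.R ≤ (q.rT / 8) ^ 2 / 2 * deriv d.Φ (d.u0 z) :=
    h2.trans (le_mul_of_one_le_right hc2 hN)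
  rw [hM', A.nx, A.ny]
  have hκ := hL.kA.1 q
  exact MA_PB (c₂ := (q.rT / 8) ^ 2 / 2) (by norm_num) hs (by linarith) (by linarith) hc2
    (by linarith) (by linarith) (by linarith) hF1 hF2 hs2 hs2

/-! ## The cost -/

/-- The bound of the squares of the derivatives of the cut-offs at deep points. -/
def Zd (n : ℕ) (q : Cst) : ℝ := n * (7 * BF * (bD q + 1)) ^ 2

theorem Zd_nn (n : ℕ) (q : Cst) : 0 ≤ Zd n q := by unfold Zd; positivity

/-- The number for `RowDeep`. -/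
def aD (μ : Cst → ℝ) (q : Cst) : ℝ :=
  if 0 < q.σ ∧ 0 < q.c₀ then min (q.σ / 2) (q.σ * q.c₀ / (1600 * (μ q + 1))) else 1

theorem aD_pos {μ : Cst → ℝ} (hμ : ∀ q, 0 < μ q) (q : Cst) : 0 < aD μ q := by
  unfold aD
  split_ifs with h
  · have := hμ q
    have h1 := h.1
    have h2 := h.2
    refine lt_min (by positivity) (by positivity)
  · exact one_pos

/-- The number for `ev_ZS`. -/
def dF (ε e μ : Cst → ℝ) (q : Cst) : ℝ :=
  min (ε q / 576) (ε q * e q * ((q.rT / 8) ^ 2 / 2) / (12 * (2 * μ q / q.c₀ + q.σ + 1)))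

/-- **The cost of the leaves of zone A is small.** -/
theorem cbA (hn : 1 ≤ n) (hF : RowFn n) {L : Lc n} (hL : L.Ok) {k : Zo}
    (hk : k = .A1 ∨ k = .A2 ∨ k = .Af) : CbI L k := by
  intro ε hε
  refine ⟨fun q => min 1 (ε q / (2 * Zd n q + 1)), ⟨fun q => ?_, fun q => ?_⟩, fun e he hle => ?_⟩
  · have h1 := hε.1 q
    have h2 : Zd n q.b_c' = Zd n q := rfl
    simp only [h1, h2]
  · have h1 := hε.2 q
    have h2 := Zd_nn n q
    exact lt_min one_pos (by positivity)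
  -- the constants
  have nbε : ∀ q : Cst, ε q.b_M₀ = ε q := fun q => by
    rw [← hε.1 q.b_M₀, ← hε.1 q]; rfl
  have nbe : ∀ q : Cst, e q.b_M₀ = e q := fun q => by
    rw [← he.1 q.b_M₀, ← he.1 q]; rfl
  have nbεR : ∀ q : Cst, ε q.b_R = ε q := fun q => by
    rw [← hε.1 q.b_R, ← hε.1 q]; rfl
  have nbeR : ∀ q : Cst, e q.b_R = e q := fun q => by
    rw [← he.1 q.b_R, ← he.1 q]; rfl
  have nbμR : ∀ q : Cst, L.μA q.b_R = L.μA q := fun q => by
    rw [← hL.μA.2 q.b_R, ← hL.μA.2 q]; rfl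
  have h1 : EvC fun q => 0 < q.rT → Zd n q ≤ ε q * e q * ((q.rT / 8) ^ 2 / 2 * q.M₀ ^ 2) := by
    have key := EvC.at_M₀ (fun q t => 0 < q.rT → Zd n q ≤ ε q * e q * ((q.rT / 8) ^ 2 / 2 * t ^ 2))
      fun q => by
        by_cases hr : 0 < q.rT
        · have h1 := hε.2 q
          have h2 := he.2 q
          have ht : Tendsto (fun t : ℝ => ε q * e q * ((q.rT / 8) ^ 2 / 2 * t ^ 2)) atTop atTop :=
            ((tendsto_pow_atTop (by norm_num)).const_mul_atTop (by positivity)).const_mul_atTop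
              (by positivity)
          filter_upwards [ht.eventually_ge_atTop (Zd n q)] with t ht _ using ht
        · exact Eventually.of_forall fun _ h => absurd h hr
    refine key.mono fun q hq h => ?_
    have := hq h
    rw [nbε, nbe] at this
    exact this
  have h2 := H475.A.rowDeep n (aD L.μA) (fun q => by unfold aD; rw [nbμR]; rfl) (aD_pos hL.μA.1)
  have h3 := ev_ZS n hn (dF ε e L.μA) (fun q => by unfold dF; rw [nbεR, nbeR, nbμR]; rfl)
  have h4 : EvC fun q => 0 < q.κ₁ → q.σ ≤ 1 / 100 → q.κ₁ ≤ 1 / 50 → 4 * (q.κ₁ * q.R) ≤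
      (3 / 2) * (q.R / q.σ) := by
    refine EvC.pos.mono ?_
    rintro q ⟨-, ⟨-, hσ, -⟩, -, -, -, -, -, hR⟩ h1 h2 h3
    have hR0 : 0 < q.R := by linarith
    have e1 : (3 / 2) * (q.R / q.σ) = q.R * ((3 / 2) / q.σ) := by ring
    have e2 : 1 ≤ (3 / 2) / q.σ := by rw [le_div_iff₀ hσ]; linarith
    rw [e1]
    nlinarith
  refine (((evAF n hF hk).and ((EvC.litSm n).and (EvC.deep_b n hn))).and
    ((h1.and (h2.and h3)).and ((h4.and ((EvC.u_eq n).and hF)).and
      (κ_le.and (σ_le.and EvC.pos))))).mono ?_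
  rintro q ⟨⟨hA, hsm, hdb⟩, ⟨h1, h2, h3⟩, ⟨h4, hu, hF⟩, hκ, hσ', ⟨-, -, -, -, -, hc, -, hT, -⟩,
    ⟨hκ0, hσ, -⟩, hM, -, -, -, -, hR⟩ d h z hz hal
  have A := hA d h z hz hal
  have hR0 : 0 < q.R := by linarith
  have hs : 0 ≤ q.σ / q.R := by positivity
  obtain ⟨l₁, l₂⟩ := hF d h z
  have hC : coz L e q d k = H747.SW.coA d.sx d.sy (d.W q) (H747.A.mA L.μA q d) (d.ch q k) (e q) := by
    rcases hk with rfl | rfl | rfl <;> rfl
  have hε0 := hε.2 q
  have he0 := he.2 q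
  have hN1 : 1 ≤ deriv d.Φ (d.u0 z) := hM.trans A.M
  have hN0 : 0 ≤ deriv d.Φ (d.u0 z) := by linarith
  have hr0 : 0 < H747.A.rr d z := by linarith [A.r]
  have hG := A.G
  have hμ := hL.μA.1 q
  have hc2 : 0 ≤ (q.rT / 8) ^ 2 / 2 := by positivity
  have hNG : deriv d.Φ (d.u0 z) ≤ H747.A.NG q d z := by rw [A.NG]; linarith
  have hm0 : 0 ≤ H747.A.mA L.μA q d z := by
    refine le_trans ?_ (mA_ge hL A hc hσ hR0)
    positivity
  have hth := hle q
  have ht1 : e q ≤ 1 := hth.trans (min_le_left _ _)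
  have ht2 : e q ≤ ε q / (2 * Zd n q + 1) := hth.trans (min_le_right _ _)
  rw [hC, A.nx, A.ny]
  by_cases hd : d.u0 z < -(3 / 2) * (q.R / q.σ)
  · -- deep points
    have hkk : k = .z0 ∨ k = .A1 ∨ k = .A2 ∨ k = .Af := Or.inr hk
    obtain ⟨Z1, Z2⟩ := Z_le (hsm d h) (hdb d h z hd k hkk hal)
    have Z1' : ∑ i, d.sx.D i (d.ch q k) z ^ 2 ≤ Zd n q := Z1
    have Z2' : ∑ i, d.sy.D i (d.ch q k) z ^ 2 ≤ Zd n q := Z2
    have hZ := Zd_nn n q
    have hGd : H747.A.GG q d z ≤ aD L.μA q / q.R := by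
      refine h2 d h z A.B ?_
      rw [hu d h z hz.i hz.x hz.y]
      have := h4 hκ0 (by linarith) hκ
      linarith
    have hm : H747.A.mA L.μA q d z ≤ q.σ / q.R * deriv d.Φ (d.u0 z) / 200 := by
      have a1 : aD L.μA q ≤ q.σ / 2 := by
        unfold aD; rw [if_pos ⟨hσ, hc⟩]; exact min_le_left _ _
      have a2 : aD L.μA q ≤ q.σ * q.c₀ / (1600 * (L.μA q + 1)) := by
        unfold aD; rw [if_pos ⟨hσ, hc⟩]; exact min_le_right _ _
      unfold H747.A.mA
      rw [A.NG]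
      have b1 : H747.A.GG q d z / H747.A.rr d z ≤ aD L.μA q / q.R / (q.c₀ / 2) :=
        div_le_div₀ (by have := aD_pos hL.μA.1 q; positivity) hGd (by positivity) A.r.le
      have b2 : L.μA q * (H747.A.GG q d z / H747.A.rr d z) ≤ q.σ / q.R / 800 := by
        calc _ ≤ L.μA q * (aD L.μA q / q.R / (q.c₀ / 2)) := mul_le_mul_of_nonneg_left b1 hμ.le
          _ ≤ L.μA q * (q.σ * q.c₀ / (1600 * (L.μA q + 1)) / q.R / (q.c₀ / 2)) := by gcongr
          _ = q.σ / q.R / 800 * (L.μA q / (L.μA q + 1)) := by field_simp; ring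
          _ ≤ q.σ / q.R / 800 * 1 := by
              refine mul_le_mul_of_nonneg_left ?_ (by positivity)
              rw [div_le_one (by positivity)]
              linarith
          _ = _ := mul_one _
      have b3 : H747.A.GG q d z ≤ 1 / 2 := by
        refine hGd.trans ?_
        rw [div_le_iff₀ hR0]
        nlinarith
      have b4 : q.σ / (400 * q.R) * (deriv d.Φ (d.u0 z) + H747.A.GG q d z) ≤
          q.σ / q.R * (deriv d.Φ (d.u0 z) + 1 / 2) / 400 := by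
        have e1 : q.σ / (400 * q.R) = q.σ / q.R / 400 := by ring
        rw [e1]
        have b5 : deriv d.Φ (d.u0 z) + H747.A.GG q d z ≤ deriv d.Φ (d.u0 z) + 1 / 2 := by linarith
        have := mul_le_mul_of_nonneg_left b5 hs
        linarith
      have b6 := mul_le_mul_of_nonneg_left hN1 hs
      linarith
    have hη2 : e q * (2 * Zd n q) ≤ ε q := by
      rw [le_div_iff₀ (by positivity)] at ht2
      nlinarith
    have hM2 : q.M₀ ^ 2 ≤ H747.A.NG q d z ^ 2 :=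
      pow_le_pow_left₀ (by linarith) (A.M.trans hNG) 2
    have hZF : Zd n q ≤ ε q * e q * ((q.rT / 8) ^ 2 / 2 * H747.A.NG q d z ^ 2) :=
      (h1 hT).trans (mul_le_mul_of_nonneg_left (mul_le_mul_of_nonneg_left hM2 hc2)
        (by positivity))
    have hZF1 : Zd n q ≤ ε q * e q * d.sx.F (d.W q) z :=
      hZF.trans (mul_le_mul_of_nonneg_left A.F1 (by positivity))
    have hZF2 : Zd n q ≤ ε q * e q * d.sy.F (d.W q) z :=
      hZF.trans (mul_le_mul_of_nonneg_left A.F2 (by positivity))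
    obtain ⟨x1, x2⟩ := sc_deep he0 hZ hm0 hm hs hN0 hε0.le hη2 hZF1
    obtain ⟨y1, y2⟩ := sc_deep he0 hZ hm0 hm hs hN0 hε0.le hη2 hZF2
    exact coA_CB l₁ l₂ he0 hm0 Z1' Z2' x1 y1 x2 y2 hε0.le hs hN0 hN0
  · -- far points
    have hδ : 0 < dF ε e L.μA q := by unfold dF; positivity
    obtain ⟨Z1, Z2⟩ := h3 hδ d h z hz k hal (Or.inr hd)
    have d1 : 576 * dF ε e L.μA q ≤ ε q := by
      have : dF ε e L.μA q ≤ ε q / 576 := min_le_left _ _
      linarith
    have hC0 : 0 < 2 * L.μA q / q.c₀ + q.σ + 1 := by positivity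
    have d2 : 12 * ((2 * L.μA q / q.c₀ + q.σ + 1) * dF ε e L.μA q) ≤
        ε q * e q * ((q.rT / 8) ^ 2 / 2) := by
      have h5 : dF ε e L.μA q ≤ ε q * e q * ((q.rT / 8) ^ 2 / 2) /
        (12 * (2 * L.μA q / q.c₀ + q.σ + 1)) := min_le_right _ _
      rw [le_div_iff₀ (by positivity)] at h5
      linarith
    have hm : H747.A.mA L.μA q d z ≤ (2 * L.μA q / q.c₀ + q.σ + 1) * H747.A.NG q d z := by
      unfold H747.A.mA
      have b1 : H747.A.GG q d z / H747.A.rr d z ≤ H747.A.NG q d z / (q.c₀ / 2) :=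
        div_le_div₀ (by linarith) (by rw [A.NG]; linarith) (by positivity) A.r.le
      have b2 := mul_le_mul_of_nonneg_left b1 hμ.le
      have b3 : q.σ / (400 * q.R) ≤ q.σ := div_le_self hσ.le (by linarith)
      have b4 := mul_le_mul_of_nonneg_right b3 (by linarith : 0 ≤ H747.A.NG q d z)
      have e1 : L.μA q * (H747.A.NG q d z / (q.c₀ / 2)) = 2 * L.μA q / q.c₀ * H747.A.NG q d z := by
        field_simp
      rw [e1] at b2
      have : 0 ≤ H747.A.NG q d z := by linarith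
      nlinarith
    obtain ⟨x1, x2⟩ := sc_far he0 ht1 hδ.le hm0 hm hs hN0 (hN1.trans hNG) hε0.le hc2 d1 d2 A.F1
    obtain ⟨y1, y2⟩ := sc_far he0 ht1 hδ.le hm0 hm hs hN0 (hN1.trans hNG) hε0.le hc2 d1 d2 A.F2
    exact coA_CB l₁ l₂ he0 hm0 Z1 Z2 x1 y1 x2 y2 hε0.le hs hN0 hN0

end Vale.Agent.P088.R2.H206.E
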